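import Crest.Agent.X262.Alg44.Defs
import Crest.Agent.X277.AN.G1Gaga

/-!
# Row 262, G4 / ALG (helper28): generation of the module of sections

* `sec_forms`  : the sections of `d • oP P` are forms of degree `d` for large `d`;
* `exists_form`: elements of a chart ring are forms divided by a power of the coordinate;
* `genSecStmt : Alg44.GenSecStmt`.
-/

set_option autoImplicit false

noncomputable section

namespace Crest.Agent.X262.Gen28

open Crest.Agent.X277 Crest.Agent.X277.Lef Crest.Agent.X277.AN Crest.Agent.X277.AN.G1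
open Crest.Agent.X277.BD Crest.Agent.X277.BD.Br
open MvPolynomial

variable {F : Type} [Field F] [Algebra ℂ F] (P : PModel ℂ F)

/-- **Serre**: sections of large degree are forms -/
theorem sec_forms : ∃ d0 : ℕ, ∀ d, d0 ≤ d → ∀ f ∈ (d • oP P).Sec,
    ∃ p : MvPolynomial (Fin (P.N + 1)) ℂ, p.IsHomogeneous d ∧ f = aeval P.y p := by
  obtain ⟨b⟩ := exists_basis P
  obtain ⟨Y⟩ := nonempty_AnP P b
  obtain ⟨d0, h⟩ := SP.sec_poly Y.Pr Y.PA
  refine ⟨d0, fun d hd f hf => ?_⟩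
  have h1 : AnP.RegS (Y.yF ^ d) Set.univ f := fun α x hx _ => by
    rw [AnP.fr_pow, AnP.fr_yF]
    exact ((at_y (Y.sub α x hx)).nsmul d).div_mem hf
  have h2 := AnP.isHS_sec h1
  rw [map_pow, ← AnP.lb_Pr] at h2
  obtain ⟨p, hp, h3⟩ := h d hd _ h2
  refine ⟨p, hp, AnP.sec_inj (φ := Y.yF ^ d) ?_⟩
  funext α x
  by_cases hx : x ∈ (Y.A.e α).source
  · rw [h3 α x hx, AnP.sec_form hp hx]
  · rw [AnP.sec_off _ _ hx, AnP.sec_off _ _ hx]

variable {P}

theorem form_mem_Sec {p : MvPolynomial (Fin (P.N + 1)) ℂ} {d : ℕ} (hp : p.IsHomogeneous d) :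
    aeval P.y p ∈ (d • oP P).Sec := mem_Sec_of fun x => by
  obtain ⟨i, hi⟩ := exists_pat x
  refine ⟨_, (at_y hi).nsmul d, ?_⟩
  rw [← aeval_div_hom hp]
  exact LP.aeval_mem (y_mem hi) p

theorem hom_X_pow {σ : Type*} (i : σ) (k : ℕ) : (X i ^ k : MvPolynomial σ ℂ).IsHomogeneous k := by
  simpa using (isHomogeneous_X ℂ i).pow k

/-- an element of a chart ring is a form divided by a power of the coordinate -/
theorem exists_form {i : Fin (P.N + 1)} {a : F} (ha : a ∈ P.A i) : ∃ k0 : ℕ, ∀ k, k0 ≤ k →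
    ∃ p : MvPolynomial (Fin (P.N + 1)) ℂ, p.IsHomogeneous k ∧ a * P.y i ^ k = aeval P.y p := by
  have up : ∀ {a : F} (k0 : ℕ) (p : MvPolynomial (Fin (P.N + 1)) ℂ), p.IsHomogeneous k0 →
      a * P.y i ^ k0 = aeval P.y p → ∀ k, k0 ≤ k → ∃ p : MvPolynomial (Fin (P.N + 1)) ℂ,
        p.IsHomogeneous k ∧ a * P.y i ^ k = aeval P.y p := fun k0 p hp h k hk => by
    obtain ⟨e, rfl⟩ := Nat.exists_eq_add_of_le hk
    exact ⟨p * X i ^ e, hp.mul (hom_X_pow i e), by
      rw [map_mul, ← h, map_pow, aeval_X, pow_add, mul_assoc]⟩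
  induction ha using Algebra.adjoin_induction with
  | mem a ha =>
    obtain ⟨j, rfl⟩ := ha
    exact ⟨1, up 1 (X j) (isHomogeneous_X ℂ j) (by
      rw [pow_one, div_mul_cancel₀ _ (P.y_ne i), aeval_X])⟩
  | algebraMap c => exact ⟨0, up 0 (C c) (isHomogeneous_C _ c) (by simp)⟩
  | add a b _ _ ha hb =>
    obtain ⟨k, hk⟩ := ha
    obtain ⟨l, hl⟩ := hb
    obtain ⟨p, hp, h1⟩ := hk (k + l) (by omega)
    obtain ⟨q, hq, h2⟩ := hl (k + l) (by omega)
    exact ⟨k + l, up _ (p + q) (hp.add hq) (by rw [add_mul, h1, h2, map_add])⟩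
  | mul a b _ _ ha hb =>
    obtain ⟨k, hk⟩ := ha
    obtain ⟨l, hl⟩ := hb
    obtain ⟨p, hp, h1⟩ := hk k le_rfl
    obtain ⟨q, hq, h2⟩ := hl l le_rfl
    exact ⟨k + l, up _ (p * q) (hp.mul hq) (by rw [map_mul, ← h1, ← h2]; ring)⟩

section Mod

variable {ι : Type} [Fintype ι] (P) (s : ι → F)

/-- combinations of the `s i` with forms of degree `M` as coefficients -/
def W (M : ℕ) : Submodule ℂ F where
  carrier := {f | ∃ p : ι → MvPolynomial (Fin (P.N + 1)) ℂ,
    (∀ i, (p i).IsHomogeneous M) ∧ f = ∑ i, s i * aeval P.y (p i)}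
  zero_mem' := ⟨0, fun _ => isHomogeneous_zero _ _ _, by simp⟩
  add_mem' := by
    rintro _ _ ⟨p, hp, rfl⟩ ⟨q, hq, rfl⟩
    exact ⟨p + q, fun i => (hp i).add (hq i), by simp [mul_add, Finset.sum_add_distrib]⟩
  smul_mem' := by
    rintro c _ ⟨p, hp, rfl⟩
    refine ⟨fun i => C c * p i, fun i => (hp i).C_mul c, ?_⟩
    rw [Algebra.smul_def, Finset.mul_sum]
    exact Finset.sum_congr rfl fun i _ => by rw [map_mul, aeval_C]; ring

/-- combinations of the `s j` with coefficients in a chart ring -/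
def Nc (i : Fin (P.N + 1)) : Submodule ℂ F where
  carrier := {f | ∃ a : ι → F, (∀ j, a j ∈ P.A i) ∧ f = ∑ j, s j * a j}
  zero_mem' := ⟨0, fun _ => zero_mem _, by simp⟩
  add_mem' := by
    rintro _ _ ⟨p, hp, rfl⟩ ⟨q, hq, rfl⟩
    exact ⟨p + q, fun i => add_mem (hp i) (hq i), by simp [mul_add, Finset.sum_add_distrib]⟩
  smul_mem' := by
    rintro c _ ⟨p, hp, rfl⟩
    exact ⟨fun i => c • p i, fun i => Subalgebra.smul_mem _ (hp i) c, by simp [Finset.smul_sum]⟩

variable {P s}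

theorem mul_mem_W {M k : ℕ} {f : F} (hf : f ∈ W P s M) {r : MvPolynomial (Fin (P.N + 1)) ℂ}
    (hr : r.IsHomogeneous k) : aeval P.y r * f ∈ W P s (k + M) := by
  obtain ⟨p, hp, rfl⟩ := hf
  refine ⟨fun i => r * p i, fun i => hr.mul (hp i), ?_⟩
  rw [Finset.mul_sum]
  exact Finset.sum_congr rfl fun i _ => by rw [map_mul]; ring

theorem mem_Nc (hs : ∃ i, s i ≠ 0) (ha : mxf ℂ s ∈ On P) {M : ℕ} {f : F}
    (hf : f ∈ (mxf ℂ s + M • oP P).Sec) (i : Fin (P.N + 1)) : f / P.y i ^ M ∈ Nc P s i := by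
  classical
  refine mem_of_local (i := i) _ ?_ fun x hx => ?_
  · rintro c hc _ ⟨a, ha, rfl⟩
    exact ⟨fun j => c * a j, fun j => mul_mem hc (ha j), by
      rw [Finset.mul_sum]
      exact Finset.sum_congr rfl fun j _ => by ring⟩
  · obtain ⟨g, hg⟩ := ha x
    obtain ⟨j, hj⟩ := hg.exists_mxf hs
    obtain ⟨a, ha, c, hc, h0, h1⟩ :=
      (G1.mem_lp_iff hx).1 ((hj.add ((at_y hx).nsmul M)).div_mem hf)
    refine ⟨c, hc, h0, Pi.single j a, fun l => ?_, ?_⟩
    · by_cases h : l = j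
      · rwa [h, Pi.single_eq_same]
      · rw [Pi.single_eq_of_ne h]
        exact zero_mem _
    · rw [Finset.sum_eq_single j (fun l _ h => by rw [Pi.single_eq_of_ne h, mul_zero])
        (by simp), Pi.single_eq_same, ← h1]
      have := hj.ne
      field_simp

theorem exists_y_pow (hs : ∃ i, s i ≠ 0) (ha : mxf ℂ s ∈ On P) {M : ℕ} {f : F}
    (hf : f ∈ (mxf ℂ s + M • oP P).Sec) (i : Fin (P.N + 1)) :
    ∃ k : ℕ, P.y i ^ k * f ∈ W P s (k + M) := by
  obtain ⟨a, h1, h2⟩ := mem_Nc hs ha hf i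
  choose k hk using fun j => exists_form (h1 j)
  choose p hp h3 using fun j => hk j (Finset.univ.sup k + M)
    ((Finset.le_sup (Finset.mem_univ j)).trans (Nat.le_add_right _ _))
  refine ⟨Finset.univ.sup k, p, hp, ?_⟩
  rw [div_eq_iff (pow_ne_zero _ (P.y_ne i))] at h2
  rw [h2, Finset.sum_mul, Finset.mul_sum]
  exact Finset.sum_congr rfl fun j _ => by rw [← h3]; ring

/-- every section times any form of large degree is a combination of the `s i` -/
theorem exists_mul (hs : ∃ i, s i ≠ 0) (ha : mxf ℂ s ∈ On P) {M : ℕ} {f : F}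
    (hf : f ∈ (mxf ℂ s + M • oP P).Sec) : ∃ k0 : ℕ, ∀ k, k0 ≤ k →
      ∀ r : MvPolynomial (Fin (P.N + 1)) ℂ, r.IsHomogeneous k → aeval P.y r * f ∈ W P s (k + M) := by
  classical
  choose k hk using exists_y_pow hs ha hf
  refine ⟨∑ i, k i, fun m hm r hr => ?_⟩
  rw [r.as_sum, map_sum, Finset.sum_mul]
  refine Submodule.sum_mem _ fun d hd => ?_
  have h1 : d.degree = m := by
    rw [Finsupp.degree_eq_weight_one]
    exact hr (mem_support_iff.1 hd)
  obtain ⟨i, hi⟩ : ∃ i, k i ≤ d i := by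
    by_contra h
    push Not at h
    have h2 := Finset.sum_lt_sum_of_nonempty Finset.univ_nonempty fun i _ => h i
    rw [← Finsupp.degree_eq_sum, h1] at h2
    omega
  obtain ⟨e, he⟩ : ∃ e, d = e + Finsupp.single i (k i) :=
    ⟨d - Finsupp.single i (k i), (tsub_add_cancel_of_le (Finsupp.single_le_iff.2 hi)).symm⟩
  have h3 : e.degree + k i = m := by rw [← h1, he, map_add, Finsupp.degree_single]
  have h4 := mul_mem_W (hk i) (isHomogeneous_monomial (coeff d r) (rfl : e.degree = _))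
  rw [← add_assoc, h3] at h4
  convert h4 using 1
  conv_lhs => rw [he, monomial_add_single, ← he, map_mul, map_pow, aeval_X, mul_assoc]

theorem gen (hs : ∃ i, s i ≠ 0) (ha : mxf ℂ s ∈ On P) : ∃ M0 : ℕ, ∀ M, M0 ≤ M →
    ∀ f ∈ (mxf ℂ s + M • oP P).Sec, f ∈ W P s M := by
  classical
  obtain ⟨d0, hd⟩ := sec_forms P
  obtain ⟨g, hg, e0, he⟩ := G1.exists_tw_mem P s
  set e := max d0 e0
  set G := g * P.y 0 ^ e
  have hG : G ≠ 0 := mul_ne_zero hg (pow_ne_zero _ (P.y_ne 0))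
  have h1 : ∀ j, G * s j ∈ (e • oP P).Sec := fun j => mem_Sec_of fun x => by
    obtain ⟨i, hi⟩ := exists_pat x
    exact ⟨_, (at_y hi).nsmul e, A_le hi (he e (le_max_right _ _) j i)⟩
  have h2 : ∀ (M : ℕ), ∀ f ∈ (mxf ℂ s + M • oP P).Sec, G * f ∈ ((e + M) • oP P).Sec := by
    intro M f hf V
    obtain ⟨j, hj⟩ := exists_val_mxf (k := ℂ) hs V
    have h3 := hf V
    have h4 := h1 j V
    rw [val_add, ← hj] at h3
    rw [map_mul] at h4
    rw [add_nsmul, val_add, map_mul]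
    exact (mul_le_mul_right h3 _).trans (by rw [← mul_assoc]; exact mul_le_mul_left h4 _)
  let T : Set (MvPolynomial (Fin (P.N + 1)) ℂ) := {p | ∃ M : ℕ, p.IsHomogeneous (e + M) ∧
    ∃ f ∈ (mxf ℂ s + M • oP P).Sec, aeval P.y p = G * f}
  obtain ⟨T0, hT0, hT⟩ := (Submodule.fg_span_iff_fg_span_finset_subset T).1
    (IsNoetherian.noetherian (Submodule.span (MvPolynomial (Fin (P.N + 1)) ℂ) T))
  have h5 : ∀ t : T0, ∃ M1 : ℕ, ∀ M, M1 ≤ M → ∀ r, ∃ f ∈ W P s M,
      aeval P.y (homogeneousComponent (e + M) (r * t.1)) = G * f := by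
    rintro ⟨t, ht⟩
    obtain ⟨m, h6, f, hf, h7⟩ := hT0 ht
    obtain ⟨k0, hk⟩ := exists_mul hs ha hf
    refine ⟨k0 + m, fun M hM r => ?_⟩
    obtain ⟨k, rfl⟩ : ∃ k, M = k + m := ⟨M - m, by omega⟩
    refine ⟨_, hk k (by omega) _ (homogeneousComponent_isHomogeneous k r), ?_⟩
    have h8 : homogeneousComponent (e + (k + m)) (r * t) = homogeneousComponent k r * t := by
      conv_lhs => rw [← sum_homogeneousComponent r, Finset.sum_mul, map_sum]
      rw [Finset.sum_eq_single k]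
      · rw [homogeneousComponent_of_mem ((homogeneousComponent_isHomogeneous k r).mul h6),
          if_pos (by omega)]
      · intro l _ hl
        rw [homogeneousComponent_of_mem ((homogeneousComponent_isHomogeneous l r).mul h6),
          if_neg (by omega)]
      · intro hk
        rw [homogeneousComponent_eq_zero k r (by simpa using hk), zero_mul, map_zero]
    rw [h8, map_mul, h7]
    ring
  choose M1 hM1 using h5
  refine ⟨Finset.univ.sup M1, fun M hM f hf => ?_⟩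
  have h9 : ∀ p ∈ Submodule.span (MvPolynomial (Fin (P.N + 1)) ℂ)
      (T0 : Set (MvPolynomial (Fin (P.N + 1)) ℂ)), ∀ r : MvPolynomial (Fin (P.N + 1)) ℂ,
      ∃ f ∈ W P s M, aeval P.y (homogeneousComponent (e + M) (r * p)) = G * f := by
    intro p hp
    induction hp using Submodule.span_induction with
    | mem t ht => exact hM1 ⟨t, ht⟩ M ((Finset.le_sup (Finset.mem_univ _)).trans hM)
    | zero => exact fun r => ⟨0, zero_mem _, by simp⟩
    | add p q _ _ hp hq =>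
      intro r
      obtain ⟨f, hf, h1⟩ := hp r
      obtain ⟨f', hf', h2⟩ := hq r
      exact ⟨f + f', add_mem hf hf', by rw [mul_add, map_add, map_add, h1, h2, mul_add]⟩
    | smul c p _ hp => exact fun r => by rw [smul_eq_mul, ← mul_assoc]; exact hp _
  obtain ⟨p, hp, h10⟩ := hd (e + M) ((le_max_left _ _).trans (Nat.le_add_right _ _)) _ (h2 M f hf)
  obtain ⟨f', hf', h11⟩ := h9 p (hT ▸ Submodule.subset_span ⟨M, hp, f, hf, h10.symm⟩) 1
  rw [one_mul, homogeneousComponent_of_mem hp, if_pos rfl, ← h10] at h11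
  exact mul_left_cancel₀ hG h11 ▸ hf'

end Mod

/-- generation of the module of sections -/
theorem genSecStmt : Alg44.GenSecStmt := fun _ _ _ _ _ _ _ hs ha => gen hs ha

end Crest.Agent.X262.Gen28
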